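import Vale.Agent.P309.Defs

/-! Learners that may stop early, with an output rule that may depend on the index of stopping. -/

namespace Vale.Agent.P309

open MeasureTheory ProbabilityTheory
open scoped RealInnerProductSpace

/-- Mass of the runs still reading after `t` samples in state `v`, given the signal `s`. Here
`step t w x y (v, b)` is the probability to move from state `w` to state `v` on reading the pair
`(x, y)` and to stop (`b = true`) or to go on (`b = false`). -/
noncomputable def runningLaw {d N : ℕ} (init : Fin N × Bool → ℝ)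
    (step : ℕ → Fin N → EuclideanSpace ℝ (Fin d) → ℝ → Fin N × Bool → ℝ) :
    ℕ → EuclideanSpace ℝ (Fin d) → Fin N → ℝ
  | 0, _, v => init (v, false)
  | t + 1, s, v => ∑ w, runningLaw init step t s w
      * ∫ x, step t w x ⟪x, s⟫ (v, false) ∂stdGaussian (EuclideanSpace ℝ (Fin d))

/-- Mass of the runs that stopped after exactly `t` samples in state `v`, given the signal `s`. -/
noncomputable def stoppedLaw {d N : ℕ} (init : Fin N × Bool → ℝ)
    (step : ℕ → Fin N → EuclideanSpace ℝ (Fin d) → ℝ → Fin N × Bool → ℝ) :
    ℕ → EuclideanSpace ℝ (Fin d) → Fin N → ℝ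
  | 0, _, v => init (v, true)
  | t + 1, s, v => ∑ w, runningLaw init step t s w
      * ∫ x, step t w x ⟪x, s⟫ (v, true) ∂stdGaussian (EuclideanSpace ℝ (Fin d))

/-- Success probability of a learner that stops by itself, or at the horizon `T` at the latest,
and outputs by the rule `out` of the number of samples read and the final state. -/
noncomputable def stoppingSuccess {d N : ℕ} (init : Fin N × Bool → ℝ)
    (step : ℕ → Fin N → EuclideanSpace ℝ (Fin d) → ℝ → Fin N × Bool → ℝ)
    (out : ℕ → Fin N → Measure (EuclideanSpace ℝ (Fin d))) (T : ℕ) (ε : ℝ) : ℝ :=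
  ∫ s, ((∑ t ∈ Finset.range (T + 1), ∑ v, stoppedLaw init step t s v
        * (out t v {o | ‖o‖ = 1 ∧ Real.arccos ⟪o, s⟫ ≤ ε}).toReal)
      + ∑ v, runningLaw init step T s v
        * (out T v {o | ‖o‖ = 1 ∧ Real.arccos ⟪o, s⟫ ≤ ε}).toReal) ∂sphereLaw d

end Vale.Agent.P309
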