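import Vale.Agent.P309.Stopping.Defs
import Vale.Agent.P309.Sharp.Final
import Vale.Agent.P309.Sharp.Step

/-! A learner that may stop early, with randomness shared over time, reduced to the plain model. -/

namespace Vale.Agent.P309.Stopping

open MeasureTheory ProbabilityTheory Filter
open scoped RealInnerProductSpace Real ENNReal

variable {d N T : ℕ}

/-- States with a record of the index of stopping. -/
abbrev Rec (N T : ℕ) : Type := Fin N × Option (Fin (T + 1))

/-- The initial law with the record. -/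
noncomputable def init' (init : Fin N × Bool → ℝ) : Rec N T → ℝ
  | (v, none) => init (v, false)
  | (v, some i) => if i.val = 0 then init (v, true) else 0

/-- The transition with the record; it is idle from the horizon on. -/
noncomputable def step' (step : ℕ → Fin N → EuclideanSpace ℝ (Fin d) → ℝ → Fin N × Bool → ℝ)
    (t : ℕ) : Rec N T → EuclideanSpace ℝ (Fin d) → ℝ → Rec N T → ℝ
  | (w, none), x, y, (v, none) =>
      if t < T then step t w x y (v, false) else if w = v then 1 else 0
  | (w, none), x, y, (v, some i) => if t < T ∧ i.val = t + 1 then step t w x y (v, true) else 0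
  | (w, some j), _, _, q => if q = (w, some j) then 1 else 0

/-- The output from a record. -/
noncomputable def out' (out : ℕ → Fin N → Measure (EuclideanSpace ℝ (Fin d))) :
    Rec N T → Measure (EuclideanSpace ℝ (Fin d))
  | (v, none) => out T v
  | (v, some i) => out i.val v

/-- The numbering of the records. -/
noncomputable def code (N T : ℕ) : Fin (Fintype.card (Rec N T)) ≃ Rec N T :=
  (Fintype.equivFin (Rec N T)).symm

lemma card_rec (N T : ℕ) : Fintype.card (Rec N T) = N * (T + 2) := by
  simp [Rec]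

/-- A sum over records. -/
lemma sum_rec {α : Type*} [AddCommMonoid α] (f : Rec N T → α) :
    ∑ q, f q = ∑ v, f (v, none) + ∑ i : Fin (T + 1), ∑ v, f (v, some i) := by
  rw [Fintype.sum_prod_type, Finset.sum_comm, Fintype.sum_option]

lemma init'_nonneg {init : Fin N × Bool → ℝ} (h : ∀ q, 0 ≤ init q) (q : Rec N T) :
    0 ≤ init' init q := by
  rcases q with ⟨v, _ | i⟩
  · exact h _
  · simp only [init']; split_ifs <;> simp [h]

lemma sum_init' {init : Fin N × Bool → ℝ} (h : ∑ q, init q = 1) :
    ∑ q : Rec N T, init' init q = 1 := by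
  rw [sum_rec, ← h, Fintype.sum_prod_type]
  simp only [Fintype.sum_bool, Finset.sum_add_distrib, init', Fin.val_eq_zero_iff]
  rw [add_comm, Finset.sum_comm]
  simp

variable {step : ℕ → Fin N → EuclideanSpace ℝ (Fin d) → ℝ → Fin N × Bool → ℝ}

lemma step'_nonneg (h : ∀ t w x y q, 0 ≤ step t w x y q) (t : ℕ) (p : Rec N T)
    (x : EuclideanSpace ℝ (Fin d)) (y : ℝ) (q : Rec N T) : 0 ≤ step' step t p x y q := by
  rcases p with ⟨w, _ | j⟩ <;> rcases q with ⟨v, _ | i⟩ <;>
    simp only [step'] <;> split_ifs <;> simp [h]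

lemma sum_step' (h : ∀ t w x y, ∑ q, step t w x y q = 1) (t : ℕ) (p : Rec N T)
    (x : EuclideanSpace ℝ (Fin d)) (y : ℝ) : ∑ q, step' step t p x y q = 1 := by
  rcases p with ⟨w, _ | j⟩
  · rw [sum_rec]
    by_cases ht : t < T
    · rw [← h t w x y, Fintype.sum_prod_type]
      simp only [Fintype.sum_bool, Finset.sum_add_distrib, step', ht, true_and]
      rw [add_comm, Finset.sum_comm]
      congr 1
      refine Finset.sum_congr rfl fun v _ => ?_
      rw [Finset.sum_eq_single_of_mem (⟨t + 1, by omega⟩ : Fin (T + 1)) (Finset.mem_univ _)]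
      · simp
      · intro b _ hb
        rw [if_neg fun hv => hb (Fin.ext hv)]
    · simp [step', ht]
  · simp [step']

lemma measurable_step' (h : ∀ t w q,
    Measurable fun p : EuclideanSpace ℝ (Fin d) × ℝ => step t w p.1 p.2 q) (t : ℕ) (p q : Rec N T) :
    Measurable fun z : EuclideanSpace ℝ (Fin d) × ℝ => step' step t p z.1 z.2 q := by
  rcases p with ⟨w, _ | j⟩ <;> rcases q with ⟨v, _ | i⟩ <;> simp only [step'] <;>
    split_ifs <;> first | exact h _ _ _ | exact measurable_const

/-- The law in the plain model is the pair of running and stopped laws. -/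
lemma stateLaw_code (init : Fin N × Bool → ℝ) (t : ℕ) (ht : t ≤ T)
    (s : EuclideanSpace ℝ (Fin d)) :
    (∀ v, stateLaw (fun a => init' init (code N T a))
        (fun t a x y b => step' step t (code N T a) x y (code N T b)) t s ((code N T).symm (v, none))
      = runningLaw init step t s v) ∧
    ∀ v (i : Fin (T + 1)), stateLaw (fun a => init' init (code N T a))
        (fun t a x y b => step' step t (code N T a) x y (code N T b)) t s
          ((code N T).symm (v, some i))
      = if i.val ≤ t then stoppedLaw init step i.val s v else 0 := by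
  induction t with
  | zero =>
    refine ⟨fun v => by simp [stateLaw, runningLaw, init'], fun v i => ?_⟩
    simp only [stateLaw, Equiv.apply_symm_apply, init']
    by_cases hi : i.val = 0
    · simp [hi, stoppedLaw]
    · simp [hi]
  | succ t ih =>
    obtain ⟨ihr, ihs⟩ := ih (by omega)
    have htT : t < T := by omega
    refine ⟨fun v => ?_, fun v i => ?_⟩
    · rw [stateLaw, runningLaw, ← (code N T).symm.sum_comp, sum_rec]
      simp only [Equiv.apply_symm_apply, ihr, ihs]
      simp [step', htT]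
    · rw [stateLaw, ← (code N T).symm.sum_comp, sum_rec]
      simp only [Equiv.apply_symm_apply, ihr, ihs]
      simp only [step', htT, true_and]
      by_cases hi : i.val = t + 1
      · have h0 : ∀ j : Fin (T + 1), ∀ w, (v, some i) = (w, some j) →
            ¬ j.val ≤ t := by
          intro j w h
          simp only [Prod.mk.injEq, Option.some.injEq] at h
          omega
        rw [if_pos hi.le, hi, stoppedLaw]
        simp only [if_true]
        rw [add_eq_left]
        refine Finset.sum_eq_zero fun j _ => Finset.sum_eq_zero fun w _ => ?_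
        by_cases h : (v, some i) = (w, some j)
        · simp [h0 j w h]
        · simp [h]
      · simp only [if_neg hi, integral_zero, mul_zero, Finset.sum_const_zero, zero_add]
        rw [Finset.sum_eq_single i, Finset.sum_eq_single v]
        · by_cases h : i.val ≤ t
          · simp [h, show i.val ≤ t + 1 by omega]
          · simp [h, show ¬ i.val ≤ t + 1 by omega]
        · intro w _ hw
          simp [Ne.symm hw]
        · simp
        · intro j _ hj
          refine Finset.sum_eq_zero fun w _ => ?_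
          simp [Ne.symm hj]
        · simp

lemma stoppingSuccess_eq (init : Fin N × Bool → ℝ)
    (out : ℕ → Fin N → Measure (EuclideanSpace ℝ (Fin d))) (ε : ℝ) :
    stoppingSuccess init step out T ε = successProb (fun a => init' init (code N T a))
      (fun t a x y b => step' step t (code N T a) x y (code N T b))
      (fun a => out' out (code N T a)) T ε := by
  unfold stoppingSuccess successProb
  refine integral_congr_ae (Eventually.of_forall fun s => ?_)
  obtain ⟨hr, hs⟩ := stateLaw_code (step := step) init T le_rfl s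
  beta_reduce
  conv_rhs => rw [← (code N T).symm.sum_comp, sum_rec]
  simp only [Equiv.apply_symm_apply, hr, hs, out', Fin.is_le, if_true]
  rw [add_comm, Finset.sum_range]

/-- The bound for a fixed seed, from the sharp bound. -/
theorem bound_fixed : ∀ C₀ : ℝ, 0 < C₀ → ∃ c : ℝ, 0 < c ∧ ∃ ε₀ : ℝ, 0 < ε₀ ∧ ∃ d₀ : ℕ,
    ∀ d : ℕ, d₀ ≤ d → ∀ N T : ℕ, (N:ℝ) ≤ 2 ^ (C₀ * (d:ℝ) ^ 2) →
    ∀ (init : Fin N × Bool → ℝ)
      (step : ℕ → Fin N → EuclideanSpace ℝ (Fin d) → ℝ → Fin N × Bool → ℝ)
      (out : ℕ → Fin N → Measure (EuclideanSpace ℝ (Fin d))),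
    (∀ q, 0 ≤ init q) → ∑ q, init q = 1 →
    (∀ t w x y q, 0 ≤ step t w x y q) → (∀ t w x y, ∑ q, step t w x y q = 1) →
    (∀ t w q, Measurable fun p : EuclideanSpace ℝ (Fin d) × ℝ => step t w p.1 p.2 q) →
    (∀ t v, IsProbabilityMeasure (out t v)) →
    ∀ ε : ℝ, 0 < ε → ε ≤ ε₀ → 2 / 3 ≤ stoppingSuccess init step out T ε →
    c * (d:ℝ) * Real.log (1 / ε) ≤ (T:ℝ) := by
  intro C₀ hC₀
  obtain ⟨c, hc, ε₀, hε₀, d₀, hb⟩ :=
    Sharp.sharp_bound (fun _ h => Sharp.step h) (C₀ + 1) (by linarith)
  set B : ℝ := 2 * C₀ + 11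
  refine ⟨min c (1 / (8 * B)), lt_min hc (by positivity), min ε₀ (1/2), lt_min hε₀ (by norm_num),
    max d₀ 128, ?_⟩
  intro d hd N T hN init step out hi0 hi1 hs0 hs1 hsm hout ε hε hεle hsucc
  have hd128 : 128 ≤ d := le_of_max_le_right hd
  have hdR : (128:ℝ) ≤ d := by exact_mod_cast hd128
  have hεB := le_trans hεle (min_le_right _ _)
  have hL0 : 0 ≤ Real.log (1 / ε) := by
    rw [one_div, Real.log_inv, neg_nonneg]
    exact Real.log_nonpos hε.le (by linarith)
  set M := Fintype.card (Rec N T)
  set i' := fun a : Fin M => init' init (code N T a)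
  set s' := fun t (a : Fin M) (x : EuclideanSpace ℝ (Fin d)) (y : ℝ) b =>
    step' step t (code N T a) x y (code N T b)
  set o' := fun a : Fin M => out' out (code N T a)
  have a0 : ∀ a, 0 ≤ i' a := fun a => init'_nonneg hi0 _
  have a1 : ∑ a, i' a = 1 := ((code N T).sum_comp _).trans (sum_init' hi1)
  have b0 : ∀ t a x y b, 0 ≤ s' t a x y b := fun t a x y b => step'_nonneg hs0 _ _ _ _ _
  have b1 : ∀ t a x y, ∑ b, s' t a x y b = 1 := fun t a x y =>
    ((code N T).sum_comp fun q => step' step t (code N T a) x y q).trans (sum_step' hs1 _ _ _ _)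
  have bm : ∀ t a b, Measurable fun p : EuclideanSpace ℝ (Fin d) × ℝ => s' t a p.1 p.2 b :=
    fun t a b => measurable_step' hsm _ _ _
  have o1 : ∀ a, IsProbabilityMeasure (o' a) := by
    intro a
    simp only [o']
    rcases code N T a with ⟨v, _ | i⟩ <;> simp only [out'] <;> exact hout _ _
  have hsucc' : 2 / 3 ≤ successProb i' s' o' T ε := by
    rw [← stoppingSuccess_eq]; exact hsucc
  by_cases hT : ((T:ℝ) + 2) ≤ 2 ^ ((d:ℝ) ^ 2)
  · have hM : (M:ℝ) ≤ 2 ^ ((C₀ + 1) * (d:ℝ) ^ 2) := by
      rw [show (C₀ + 1) * (d:ℝ) ^ 2 = C₀ * (d:ℝ) ^ 2 + (d:ℝ) ^ 2 by ring,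
        Real.rpow_add (by norm_num), show M = N * (T + 2) from card_rec N T]
      push_cast
      exact mul_le_mul hN hT (by positivity) (by positivity)
    have := hb d (le_of_max_le_left hd) M T hM i' s' o' a0 a1 b0 b1 bm o1 ε hε
      (le_trans hεle (min_le_left _ _)) hsucc'
    exact (mul_le_mul_of_nonneg_right (mul_le_mul_of_nonneg_right (min_le_left _ _)
      (by positivity)) hL0).trans this
  · -- so many samples that recording the index costs more than the memory
    rw [not_le] at hT
    set D := (d:ℝ) ^ 2 with hD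
    have hD0 : 1 ≤ D := by rw [hD]; nlinarith
    set l := Real.log ((T:ℝ) + 2)
    have hl0 : 0 ≤ l := Real.log_nonneg (by linarith [Nat.cast_nonneg (α := ℝ) T])
    have h2D : D * Real.log 2 ≤ l := by
      have := Real.log_le_log (by positivity) hT.le
      rwa [Real.log_rpow (by norm_num)] at this
    have hl2 : (1:ℝ) / 2 ≤ Real.log 2 := by linarith [Real.log_two_gt_d9]
    have hl2' : Real.log 2 ≤ 1 := by linarith [Real.log_two_lt_d9]
    set C := C₀ + 1 + l / D
    have hC1 : 1 ≤ C := by
      have : 0 ≤ l / D := by positivity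
      simp only [C]; linarith
    have hM : (M:ℝ) ≤ Real.exp (C * (d:ℝ) ^ 2) := by
      rw [← hD, show M = N * (T + 2) from card_rec N T,
        show C * D = (C₀ + 1) * D + l by simp only [C]; field_simp, Real.exp_add]
      push_cast
      rw [Real.exp_log (by positivity)]
      refine mul_le_mul_of_nonneg_right (hN.trans ?_) (by positivity)
      rw [Real.rpow_def_of_pos (by norm_num)]
      exact Real.exp_le_exp.2 (by nlinarith [mul_le_mul_of_nonneg_right hl2' (show 0 ≤ C₀ * D by positivity)])
    have hπ : ∑ a, ENNReal.ofReal (i' a) ≤ 1 := by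
      rw [← ENNReal.ofReal_sum_of_nonneg fun a _ => a0 a, a1, ENNReal.ofReal_one]
    have hLd := Sharp.log_le_of_states (T := T) hC1 hd128 hM (Sharp.measurable_pad bm)
      (Sharp.pad_sum_le b0 b1) hπ hε
      ((ENNReal.ofReal_le_ofReal hsucc').trans (Sharp.success_le_law a0 b0 bm (by linarith)))
    have hT0 : (0:ℝ) ≤ T := Nat.cast_nonneg T
    have hlT : l ≤ (T:ℝ) + 1 :=
      (Real.log_le_sub_one_of_pos (by positivity)).trans (le_of_eq (by ring))
    have hDl : D ≤ 2 * l := by nlinarith
    have hB : (2 * C + 9) * D ≤ 4 * B * l := by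
      have e : (2 * C + 9) * D = B * D + 2 * l := by simp only [C, B]; field_simp; ring
      have hB1 : 1 ≤ B := by simp only [B]; linarith
      nlinarith
    have hTbig : (1:ℝ) ≤ T := by
      have : (2:ℝ) ^ (3:ℝ) ≤ 2 ^ D := Real.rpow_le_rpow_of_exponent_le (by norm_num)
        (by rw [hD]; nlinarith)
      norm_num at this
      linarith
    calc min c (1 / (8 * B)) * (d:ℝ) * Real.log (1 / ε)
        ≤ 1 / (8 * B) * (d:ℝ) * ((2 * C + 9) * d) :=
          mul_le_mul (mul_le_mul_of_nonneg_right (min_le_right _ _) (by positivity)) hLd hL0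
            (by positivity)
      _ = 1 / (8 * B) * ((2 * C + 9) * D) := by rw [hD]; ring
      _ ≤ 1 / (8 * B) * (4 * B * l) := by gcongr
      _ = l / 2 := by
        have : B ≠ 0 := ne_of_gt (show (0:ℝ) < 2 * C₀ + 11 by linarith)
        field_simp
        ring
      _ ≤ T := by linarith

/-- Learners that may stop early and share randomness over time need as many samples. -/
theorem stopping_bound : ∀ C₀ : ℝ, 0 < C₀ → ∃ c : ℝ, 0 < c ∧ ∃ ε₀ : ℝ, 0 < ε₀ ∧ ∃ d₀ : ℕ,
    ∀ d : ℕ, d₀ ≤ d → ∀ N T : ℕ, (N:ℝ) ≤ 2 ^ (C₀ * (d:ℝ) ^ 2) →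
    ∀ (Ω : Type) [MeasurableSpace Ω] (μ : Measure Ω) [IsProbabilityMeasure μ]
      (init : Ω → Fin N × Bool → ℝ)
      (step : Ω → ℕ → Fin N → EuclideanSpace ℝ (Fin d) → ℝ → Fin N × Bool → ℝ)
      (out : Ω → ℕ → Fin N → Measure (EuclideanSpace ℝ (Fin d))),
    (∀ ω q, 0 ≤ init ω q) → (∀ ω, ∑ q, init ω q = 1) →
    (∀ ω t w x y q, 0 ≤ step ω t w x y q) → (∀ ω t w x y, ∑ q, step ω t w x y q = 1) →
    (∀ ω t w q, Measurable fun p : EuclideanSpace ℝ (Fin d) × ℝ => step ω t w p.1 p.2 q) →
    (∀ ω t v, IsProbabilityMeasure (out ω t v)) →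
    ∀ ε : ℝ, 0 < ε → ε ≤ ε₀ →
    2 / 3 ≤ ∫ ω, stoppingSuccess (init ω) (step ω) (out ω) T ε ∂μ →
    c * (d:ℝ) * Real.log (1 / ε) ≤ (T:ℝ) := by
  intro C₀ hC₀
  obtain ⟨c, hc, ε₀, hε₀, d₀, hb⟩ := bound_fixed C₀ hC₀
  refine ⟨c, hc, ε₀, hε₀, d₀, ?_⟩
  intro d hd N T hN Ω _ μ _ init step out hi0 hi1 hs0 hs1 hsm hout ε hε hεle hsucc
  have hint : Integrable (fun ω => stoppingSuccess (init ω) (step ω) (out ω) T ε) μ := by
    by_contra h
    rw [integral_undef h] at hsucc
    norm_num at hsucc
  obtain ⟨ω, hω⟩ := exists_integral_le hint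
  exact hb d hd N T hN (init ω) (step ω) (out ω) (hi0 ω) (hi1 ω) (hs0 ω) (hs1 ω) (hsm ω) (hout ω)
    ε hε hεle (hsucc.trans hω)

end Vale.Agent.P309.Stopping
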